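/-
Row 322 (S0499): shared definitions for the memory-sample lower bound.
See findings topic row322-plan for the paper proof.  All natural logs (`Real.log`) in the Lean text.
-/
import Mathlib
import Crest.Prelude.Def_StreamLearn

set_option autoImplicit false

open MeasureTheory ProbabilityTheory
open scoped ENNReal

namespace Crest.Agent.MemSample

/-- Euclidean `d`-space (the same type as `Crest.StreamLearn.E d`). -/
abbrev E (d : ℕ) := Crest.StreamLearn.E d

/-- The standard Gaussian law on `E d`. -/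
noncomputable abbrev gam (d : ℕ) : Measure (E d) := stdGaussian (E d)

/-- Law of `w` independent Gaussian rows. -/
noncomputable abbrev rowLaw (d w : ℕ) : Measure (Fin w → E d) := Measure.pi fun _ => gam d

/-- The measurement vector `X s` of rows `X` on a signal `s`. -/
noncomputable def applyRows {d w : ℕ} (X : Fin w → E d) (s : E d) : Fin w → ℝ :=
  fun i => inner ℝ (X i) s

/-- Index of the level-`q` cell of the grid of side `2^-q / √d` containing `x`. -/
noncomputable def cellIdx (d q : ℕ) (x : E d) : Fin d → ℤ :=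
  fun i => ⌊x i * (Real.sqrt d * 2 ^ q)⌋

/-- The level-`q` cube of index `m`: half-open, of side `2^-q / √d`, diameter `≤ 2^-q`. -/
def cube (d q : ℕ) (m : Fin d → ℤ) : Set (E d) := {x | cellIdx d q x = m}

/-- Centre of a cube. -/
noncomputable def cubeCenter (d q : ℕ) (m : Fin d → ℤ) : E d :=
  WithLp.toLp 2 fun i => ((m i : ℝ) + 1 / 2) / (Real.sqrt d * 2 ^ q)

/-- The absolute constant used in the covering counts (radius `4` balls). -/
noncomputable def cOne : ℝ := 3 * Real.exp 36

/-- Mutual information (in nats) of a stochastic kernel `k` under a prior `μ`, written with the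
natural logarithm; Lean's conventions `x / 0 = 0`, `log 0 = 0` only touch null terms. -/
noncomputable def miFun {Ω ι : Type*} [MeasurableSpace Ω] [Fintype ι] (μ : Measure Ω)
    (k : ι → Ω → ℝ) : ℝ :=
  ∑ n, ∫ s, k n s * Real.log (k n s / ∫ s', k n s' ∂μ) ∂μ

/-- Transition kernel of a block map `f`: the Gaussian probability that `f` sends the rows and
their measurements on `s` to `n`. -/
noncomputable def blockKernel {d w : ℕ} {ι : Type*} (f : (Fin w → E d) → (Fin w → ℝ) → ι)
    (n : ι) (s : E d) : ℝ :=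
  (rowLaw d w).real {X | f X (applyRows X s) = n}

/-- Distance of `x` to the subspace `V`, written by the orthogonal projection. -/
noncomputable def distTo {d : ℕ} (V : Submodule ℝ (E d)) (x : E d) : ℝ :=
  ‖x - V.starProjection x‖

/-- Exponent `β' = β - (k-2)`. -/
def betaP (k β : ℕ) : ℕ := β + 2 - k

/-- `θ = 1/k + (1 - w/β')(k-1)/k`. -/
noncomputable def thetaW (w k β : ℕ) : ℝ :=
  1 / (k : ℝ) + (1 - (w : ℝ) / betaP k β) * (((k : ℝ) - 1) / k)

/-- `K' = 4^k c₁^d K₀`. -/
noncomputable def KP (d k : ℕ) (K₀ : ℝ) : ℝ := 4 ^ k * cOne ^ d * K₀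

/-- `I_max(u) = 2^(w+2) u r^(-w) (K'/u)^(w/β')`. -/
noncomputable def IMax (w k β : ℕ) (Kp r u : ℝ) : ℝ :=
  2 ^ (w + 2) * u * r⁻¹ ^ w * (Kp / u) ^ ((w : ℝ) / betaP k β)

/-- The log of the constant `V = N^(1/k) e^(w/2) 2^(1.5w+2) K'^(w/β')`. -/
noncomputable def logV (d w k β : ℕ) (N K₀ : ℝ) : ℝ :=
  Real.log N / k + (w : ℝ) / 2 + (1.5 * w + 2) * Real.log 2 +
    ((w : ℝ) / betaP k β) * Real.log (KP d k K₀)

/-- The bound of the Window Lemma. -/
noncomputable def wlBound (d w k β : ℕ) (N K₀ : ℝ) : ℝ :=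
  (logV d w k β N K₀ + 4 * (1 + (w : ℝ) / 2)) / thetaW w k β

/-! ### Dyadic `L^k` functional on `ℝ^w` -/

/-- Index of the dyadic cube of side `2^-m` in `ℝ^w` containing `y`. -/
noncomputable def dyCell (w m : ℕ) (y : Fin w → ℝ) : Fin w → ℤ := fun i => ⌊y i * 2 ^ m⌋

/-- `Λ_m(ν) = ∑_c τ^(w(1-k)) ν(c)^k` for `τ = 2^-m`. -/
noncomputable def LamM (w k m : ℕ) (ν : Measure (Fin w → ℝ)) : ℝ≥0∞ :=
  ((2 : ℝ≥0∞) ^ m) ^ (w * (k - 1)) * ∑' c : Fin w → ℤ, ν {y | dyCell w m y = c} ^ k

end Crest.Agent.MemSample
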