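/-
Row 322 (S0499), module Cells: the dyadic grid of `E d` and the covering count (F2).
-/
import Crest.Agent.Lib.MemSample.Top.Defs

set_option autoImplicit false

open MeasureTheory ProbabilityTheory
open scoped ENNReal

namespace Crest.Agent.MemSample

theorem measurable_cellIdx (d q : ℕ) : Measurable (cellIdx d q) := by
  sorry

theorem measurableSet_cube (d q : ℕ) (m : Fin d → ℤ) : MeasurableSet (cube d q m) := by
  sorry

/-- Points of the same level-`q` cell are within `2^-q`. -/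
theorem norm_sub_le_of_same_cell {d q : ℕ} {x y : E d} (h : cellIdx d q x = cellIdx d q y) :
    ‖x - y‖ ≤ (1 / 2 : ℝ) ^ q := by
  sorry

/-- Points of a level-`q` cube are within `2^-q / 2` of its centre. -/
theorem norm_sub_center_le {d q : ℕ} {m : Fin d → ℤ} {x : E d} (hx : x ∈ cube d q m) :
    ‖x - cubeCenter d q m‖ ≤ (1 / 2 : ℝ) ^ q / 2 := by
  sorry

/-- (F2) A ball of radius `ρ 2^-q` meets at most `(3 e^{(ρ+2)^2})^d` cells of level `q`.
Proof: if `m` is the cell of `x`, `m₀` the cell of `c` then `|m-m₀|² ≤ (ρ+1)² d`, and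
`#{m' ∈ ℤ^d : |m'|² ≤ R d} ≤ e^{R d} (∑_{n ∈ ℤ} e^{-n²})^d ≤ (3 e^R)^d`
(use `e^{-n²} ≤ e^{-|n|}`; `∑_n e^{-|n|} ≤ 3`; `Finset.prod_univ_sum`/`Finset.sum_prod_piFinset`). -/
theorem exists_finset_cells_of_ball (d q : ℕ) (c : E d) (ρ : ℝ) (hρ : 0 ≤ ρ) :
    ∃ A : Finset (Fin d → ℤ), (A.card : ℝ) ≤ (3 * Real.exp ((ρ + 2) ^ 2)) ^ d ∧
      ∀ x : E d, ‖x - c‖ ≤ ρ * (1 / 2 : ℝ) ^ q → cellIdx d q x ∈ A := by
  sorry

end Crest.Agent.MemSample
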