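/-
Row 322 (S0499): abstract chain: definitions.  `σ` a probability on `Ω`, `cell q : Ω → ι` the
level-`q` partition, `L z` the likelihood of the state `z` (so `P_z = L_z σ / Pr z`).
No normalization is needed: `h_z/m_z = L_z / cellMass`.
-/
import Crest.Agent.Lib.MemSample.Top.Defs

set_option autoImplicit false

open MeasureTheory ProbabilityTheory
open scoped ENNReal

namespace Crest.Agent.MemSample.Chain

variable {Ω ι Z : Type*} [MeasurableSpace Ω]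

/-- Mass of the level-`q` cell of `s` under the (unnormalized) density `g`. -/
noncomputable def cellMass (σ : Measure Ω) (cell : ℕ → Ω → ι) (g : Ω → ℝ) (q : ℕ) (s : Ω) : ℝ :=
  ∫ t in cell q ⁻¹' {cell q s}, g t ∂σ

/-- `m(q;s) 2^(βq)`. -/
noncomputable def vq (σ : Measure Ω) (cell : ℕ → Ω → ι) (β : ℕ) (g : Ω → ℝ) (q : ℕ) (s : Ω) : ℝ :=
  cellMass σ cell g q s * 2 ^ (β * q)

/-- The smallest maximizing level. -/
noncomputable def Flevel (σ : Measure Ω) (cell : ℕ → Ω → ι) (β : ℕ) (g : Ω → ℝ) (s : Ω) : ℕ :=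
  sInf {q | ∀ q', vq σ cell β g q' s ≤ vq σ cell β g q s}

/-- `log (h/G)`. -/
noncomputable def phi (σ : Measure Ω) (cell : ℕ → Ω → ι) (β : ℕ) (g : Ω → ℝ) (s : Ω) : ℝ :=
  Real.log (g s / vq σ cell β g (Flevel σ cell β g s) s)

variable [Fintype Z]

/-- The potential. -/
noncomputable def Phi (σ : Measure Ω) (cell : ℕ → Ω → ι) (β : ℕ) (L : Z → Ω → ℝ) : ℝ :=
  ∑ z, ∫ s, L z s * phi σ cell β (L z) s ∂σ

/-- `E log((Q+1)(Q+2))`. -/
noncomputable def ell (σ : Measure Ω) (cell : ℕ → Ω → ι) (β : ℕ) (L : Z → Ω → ℝ) : ℝ :=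
  ∑ z, ∫ s, L z s * Real.log (((Flevel σ cell β (L z) s : ℝ) + 1) * ((Flevel σ cell β (L z) s : ℝ) + 2)) ∂σ

/-- `E Q`. -/
noncomputable def meanF (σ : Measure Ω) (cell : ℕ → Ω → ι) (β : ℕ) (L : Z → Ω → ℝ) : ℝ :=
  ∑ z, ∫ s, L z s * (Flevel σ cell β (L z) s : ℝ) ∂σ

/-- A family of likelihoods: measurable, nonnegative, summing to one at each point. -/
structure IsFamily (L : Z → Ω → ℝ) : Prop where
  meas : ∀ z, Measurable (L z)
  nonneg : ∀ z s, 0 ≤ L z s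
  sum_one : ∀ s, ∑ z, L z s = 1

/-- One step of the chain. -/
noncomputable def nextFam (L : Z → Ω → ℝ) (τ : Z → Z → Ω → ℝ) : Z → Ω → ℝ :=
  fun z' s => ∑ z, L z s * τ z z' s

/-- The iterated chain from the point mass at `z₀`. -/
noncomputable def iterFam [DecidableEq Z] (z₀ : Z) (τ : ℕ → Z → Z → Ω → ℝ) : ℕ → Z → Ω → ℝ
  | 0 => fun z _ => if z = z₀ then 1 else 0
  | j + 1 => nextFam (iterFam z₀ τ j) (τ j)

/-- The hypotheses of the abstract chain: `cap` is the bound `σ(C_q) ≤ B 2^(-(β+a) q)`. -/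
structure ChainHyp [MeasurableSpace ι] (σ : Measure Ω) (cell : ℕ → Ω → ι) (β a : ℕ) (B : ℝ) : Prop where
  prob : IsProbabilityMeasure σ
  meas : ∀ q, Measurable (cell q)
  finRange : ∀ q, (Set.range (cell q)).Finite
  cap : ∀ q c, σ (cell q ⁻¹' {c}) ≤ ENNReal.ofReal (B * (1 / 2 : ℝ) ^ ((β + a) * q))
  a_pos : 1 ≤ a
  B_pos : 0 < B

/-- The Window Lemma hypothesis for one kernel. -/
def WLHyp [MeasurableSpace ι] (σ : Measure Ω) (cell : ℕ → Ω → ι) (β : ℕ) (k : Z → Ω → ℝ) (Δ ρ : ℝ) : Prop :=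
  ∀ (μ : Measure Ω) [IsProbabilityMeasure μ] (q : ℕ) (c : ι) (K₀ : ℝ), 1 ≤ K₀ → μ ≪ σ →
    μ (cell q ⁻¹' {c})ᶜ = 0 →
    (∀ q', q ≤ q' → ∀ c', μ (cell q' ⁻¹' {c'}) ≤ ENNReal.ofReal (K₀ * (1 / 2 : ℝ) ^ (β * (q' - q)))) →
    miFun μ k ≤ Δ + ρ * Real.log K₀

end Crest.Agent.MemSample.Chain
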