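/-
Row 322 (S0499): abstract chain: a priori bound, start, end and success bounds.
-/
import Crest.Agent.Lib.MemSample.Top.ChainDefs

set_option autoImplicit false

open MeasureTheory ProbabilityTheory
open scoped ENNReal

namespace Crest.Agent.MemSample.Chain

variable {Ω ι Z : Type*} [MeasurableSpace Ω] [MeasurableSpace ι] [MeasurableSingletonClass ι]
  [Countable ι] [Fintype Z] {σ : Measure Ω} {cell : ℕ → Ω → ι} {β a : ℕ} {B : ℝ}

/-- `E log((Q+1)(Q+2)) ≤ 2 log (E Q + 2)` (Jensen; via `log x ≤ x/b + log b - 1`). -/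
theorem ell_le (h : ChainHyp σ cell β a B) {L : Z → Ω → ℝ} (hL : IsFamily L) :
    ell σ cell β L ≤ 2 * Real.log (meanF σ cell β L + 2) := by
  sorry

/-- `E Q` is nonnegative (Lean form). -/
theorem meanF_nonneg (h : ChainHyp σ cell β a B) {L : Z → Ω → ℝ} (hL : IsFamily L) :
    0 ≤ meanF σ cell β L := by
  sorry

/-- A priori bound: `a Q log 2 ≤ log B - log cellMass(0)`, and the joint entropy of `(z, level-0 cell)`
is at most `log |Z| + log N₀`. -/
theorem meanF_le (h : ChainHyp σ cell β a B) {L : Z → Ω → ℝ} (hL : IsFamily L)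
    [Nonempty Z] {N₀ : ℝ} (hN₀ : (Set.range (cell 0)).ncard ≤ N₀) :
    a * Real.log 2 * meanF σ cell β L ≤ Real.log B + Real.log (Fintype.card Z) + Real.log N₀ := by
  sorry

/-- Start of the chain. -/
theorem Phi_init (h : ChainHyp σ cell β a B) [DecidableEq Z] (z₀ : Z)
    {N₀ : ℝ} (hN₀ : (Set.range (cell 0)).ncard ≤ N₀) :
    Phi σ cell β (fun z (_ : Ω) => if z = z₀ then (1 : ℝ) else 0) ≤ Real.log N₀ := by
  sorry

/-- End of the chain: the potential dominates `a Q`. -/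
theorem end_bound (h : ChainHyp σ cell β a B) {L : Z → Ω → ℝ} (hL : IsFamily L) :
    a * Real.log 2 * meanF σ cell β L ≤ Phi σ cell β L + Real.log B + ell σ cell β L := by
  sorry

/-- Success forces a large level with probability `1/2`. -/
theorem success_bound (h : ChainHyp σ cell β a B) (hβ : 1 ≤ β) {L : Z → Ω → ℝ} (hL : IsFamily L)
    (Bz : Z → Set Ω) (hBz : ∀ z, MeasurableSet (Bz z)) (qe : ℕ) (nc : ℝ) (hnc : 1 ≤ nc)
    (hcover : ∀ z, ∃ A : Finset ι, (A.card : ℝ) ≤ nc ∧ ∀ s ∈ Bz z, cell qe s ∈ A)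
    (hsucc : 2 / 3 ≤ ∑ z, ∫ s in Bz z, L z s ∂σ) :
    (1 / 2 : ℝ) * ((qe : ℝ) - Real.log (6 * nc) / (β * Real.log 2)) ≤ meanF σ cell β L := by
  sorry

end Crest.Agent.MemSample.Chain
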