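/-
Row 322 (S0499): abstract chain: the potential step.
-/
import Crest.Agent.Lib.MemSample.Top.ChainDefs

set_option autoImplicit false

open MeasureTheory ProbabilityTheory
open scoped ENNReal

namespace Crest.Agent.MemSample.Chain

variable {Ω ι Z : Type*} [MeasurableSpace Ω] [MeasurableSpace ι] [MeasurableSingletonClass ι]
  [Countable ι] [Fintype Z] {σ : Measure Ω} {cell : ℕ → Ω → ι} {β a : ℕ} {B : ℝ}

theorem isFamily_next {L : Z → Ω → ℝ} {τ : Z → Z → Ω → ℝ} (hL : IsFamily L)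
    (hτ : ∀ z, IsFamily (τ z)) : IsFamily (nextFam L τ) := by
  sorry

theorem isFamily_iter [DecidableEq Z] (z₀ : Z) {τ : ℕ → Z → Z → Ω → ℝ}
    (hτ : ∀ j z, IsFamily (τ j z)) (j : ℕ) : IsFamily (iterFam z₀ τ j) := by
  sorry

/-- The step of the potential.  Paper: row322-plan, STEP. -/
theorem Phi_step (h : ChainHyp σ cell β a B) {L : Z → Ω → ℝ} {τ : Z → Z → Ω → ℝ}
    (hL : IsFamily L) (hτ : ∀ z, IsFamily (τ z)) {Δ ρ : ℝ} (hρ : 0 ≤ ρ)
    (hWL : ∀ z, WLHyp σ cell β (τ z) Δ ρ) :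
    Phi σ cell β (nextFam L τ) ≤ Phi σ cell β L + Δ + (1 + ρ) * ell σ cell β L := by
  sorry

end Crest.Agent.MemSample.Chain
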