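/-
Row 322 (S0499), module DyadicLk: the dyadic `L^k` bound (Lemma B of the plan).
-/
import Crest.Agent.Lib.MemSample.Top.Defs

set_option autoImplicit false

open MeasureTheory ProbabilityTheory
open scoped ENNReal

namespace Crest.Agent.MemSample

/-- Lemma B.  For a finite measure `ν` on `ℝ^w` with `ℓ = liminf_m Λ_m(ν) < ∞` and `A` of finite volume,
`ν A ≤ vol(A)^(1-1/k) ℓ^(1/k)`.  (The finiteness of `ℓ` is needed because of `0 * ∞ = 0`.)
Proof: for a finite union `U` of `2^-m`-cubes, Hoelder over the cubes gives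
`ν U ≤ vol(U)^(1-1/k) Λ_m(ν)^(1/k)`. For `U` open, the union `U_m` of the `2^-m` cubes inside `U`
increases to `U` (cubes are nested), so `ν U = lim ν U_m`.  General `A`: outer regularity of
Lebesgue measure (`Set.exists_isOpen_lt_add`). -/
theorem lemmaB (w k : ℕ) (hk : 2 ≤ k) (ν : Measure (Fin w → ℝ)) [IsFiniteMeasure ν]
    (A : Set (Fin w → ℝ)) (hA : MeasurableSet A) (hA' : volume A ≠ ∞)
    (hΛ : (Filter.atTop.liminf fun m => LamM w k m ν) ≠ ∞) :
    ν A ≤ volume A ^ (1 - 1 / (k : ℝ)) *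
      (Filter.atTop.liminf fun m => LamM w k m ν) ^ (1 / (k : ℝ)) := by
  sorry

end Crest.Agent.MemSample
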