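/-
Row 322 (S0499), module Ellipsoid: the random ellipsoid containing most of the projection of `μ`.
-/
import Crest.Agent.Lib.MemSample.Top.Defs

set_option autoImplicit false

open MeasureTheory ProbabilityTheory
open scoped ENNReal

namespace Crest.Agent.MemSample

/-- `σ̃(x)² = E_s ⟪x, s-c₀⟫² + r²/4`. -/
noncomputable def sigSq {d : ℕ} (μ : Measure (E d)) (c₀ : E d) (r : ℝ) (x : E d) : ℝ :=
  ∫ s, (inner ℝ x (s - c₀)) ^ 2 ∂μ + r ^ 2 / 4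

/-- The ellipsoid `B_X`. -/
def ellip {d w : ℕ} (μ : Measure (E d)) (c₀ : E d) (r Ke : ℝ) (X : Fin w → E d) :
    Set (Fin w → ℝ) :=
  {y | ∑ i, (y i - inner ℝ (X i) c₀) ^ 2 / sigSq μ c₀ r (X i) ≤ Ke * w}

variable {d w : ℕ} (μ : Measure (E d)) [IsProbabilityMeasure μ] (c₀ : E d) (r Ke : ℝ)

theorem measurableSet_ellip (hr : 0 < r) (hsupp : ∀ᵐ s ∂μ, ‖s - c₀‖ ≤ r / 2) :
    MeasurableSet {p : (Fin w → E d) × (Fin w → ℝ) | p.2 ∈ ellip μ c₀ r Ke p.1} := by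
  sorry

/-- Markov: `μ{s : X s ∉ B_X} ≤ 1/Ke`. -/
theorem ellip_markov (hw : 1 ≤ w) (hr : 0 < r) (hKe : 0 < Ke) (hsupp : ∀ᵐ s ∂μ, ‖s - c₀‖ ≤ r / 2)
    (X : Fin w → E d) :
    μ {s | applyRows X s ∉ ellip μ c₀ r Ke X} ≤ ENNReal.ofReal (1 / Ke) := by
  sorry

/-- `E_X vol(B_X) ≤ (2π e Ke)^(w/2) (r/√2)^w`.
Proof: `indicator(|z|² ≤ R w) ≤ exp((Rw-|z|²)/(2R))` gives `vol(B_X) ≤ e^(w/2) (2π Ke)^(w/2) ∏ σ̃(X_i)`
(no Gamma function; `integral_gaussian`); the rows are independent; `E σ̃(x) ≤ √(E σ̃(x)²)` and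
`E_x σ̃(x)² = E_s |s-c₀|² + r²/4 ≤ r²/2`, using `E_x ⟪x,v⟫² = |v|²` (`variance_dual_stdGaussian`). -/
theorem ellip_volume_mean (hw : 1 ≤ w) (hr : 0 < r) (hKe : 0 < Ke)
    (hsupp : ∀ᵐ s ∂μ, ‖s - c₀‖ ≤ r / 2) :
    ∫⁻ X : Fin w → E d, volume (ellip μ c₀ r Ke X) ∂(rowLaw d w) ≤
      ENNReal.ofReal ((2 * Real.pi * Real.exp 1 * Ke) ^ ((w : ℝ) / 2) * (r / √2) ^ w) := by
  sorry

end Crest.Agent.MemSample
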