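/-
Row 322 (S0499), module Sphere: the uniform law on the sphere: total mass, cap bound (F1),
rotation invariance, second moments.
-/
import Crest.Agent.Lib.MemSample.Top.Defs

set_option autoImplicit false

open MeasureTheory ProbabilityTheory
open scoped ENNReal

namespace Crest.Agent.MemSample

/-- The uniform law on the sphere. -/
noncomputable abbrev sig (d : ℕ) : Measure (Crest.StreamLearn.Sphere d) :=
  Crest.StreamLearn.sphereUniform d

/-- It is a probability measure in dimension `≥ 1`. -/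
theorem sig_isProb {d : ℕ} (hd : 1 ≤ d) : IsProbabilityMeasure (sig d) := by
  sorry

/-- (F1) Cap bound, `a` arbitrary: the measure of the part of the sphere in a ball of radius `ρ`
is at most `2^d ρ^(d-1)`.
Proof: by `Measure.toSphere_apply'`, `σ(A) = vol(Ioo 0 1 • A)/vol(ball 0 1)`. With `A = S ∩ B(a,ρ)`,
`ρ ≤ 1` (`ρ > 1` is trivial): the shell `(Ioo (1-ρ) 1) • A ⊆ B(a,2ρ)` has volume
`(1-(1-ρ)^d) vol(Ioo 0 1 • A) ≥ ρ vol(Ioo 0 1 • A)`. -/
theorem sig_cap {d : ℕ} (hd : 1 ≤ d) (a : E d) (ρ : ℝ) (hρ : 0 < ρ) :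
    sig d {s | ‖(s : E d) - a‖ ≤ ρ} ≤ ENNReal.ofReal (2 ^ d * ρ ^ (d - 1)) := by
  sorry

/-- Rotation invariance, as a statement on the sphere seen through the coercion to `E d`. -/
theorem sig_isometry {d : ℕ} (hd : 1 ≤ d) (U : E d ≃ₗᵢ[ℝ] E d) (A : Set (E d))
    (hA : MeasurableSet A) :
    sig d {s | U (s : E d) ∈ A} = sig d {s | (s : E d) ∈ A} := by
  sorry

/-- `E ⟪e,s⟫² = ‖e‖²/d`.  Proof: the reflection `reflection_sub` maps `e/‖e‖` to a basis vector;
invariance; the squares sum to `1` over the standard basis. -/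
theorem integral_inner_sq {d : ℕ} (hd : 1 ≤ d) (e : E d) :
    ∫ s, (inner ℝ e (s : E d)) ^ 2 ∂(sig d) = ‖e‖ ^ 2 / d := by
  sorry

end Crest.Agent.MemSample
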