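/-
Row 322 (S0499): the rank lemma: with `T ≤ d/4` rows no learner succeeds at `ε ≤ 1/10`.
-/
import Crest.Agent.Lib.MemSample.Top.Sphere

set_option autoImplicit false

open MeasureTheory ProbabilityTheory
open scoped ENNReal

namespace Crest.Agent.MemSample

/-- Fix rows `X`, `V` their span, `ι = 2P_V - 1` (a linear isometry: `Submodule.reflection`, up to sign).
`ι` preserves `σ` and `X s`; so the output is the same at `s` and `ι s`.  If both are good then
`|s_⊥| ≤ ε`.  So `P ≤ (1 + P[|s_⊥| ≤ 1/10])/2`; `P[|s_⊥| ≤ 1/10] = P[|P s|² ≥ .99] ≤ (T/d)/.99`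
by `integral_inner_sq`. So `P ≤ .63`. -/
theorem rank_lemma {d T : ℕ} (hd : 1 ≤ d) (hT : 4 * T ≤ d)
    (g : (Fin T → E d) → (Fin T → ℝ) → E d) (hg : Measurable (Function.uncurry g))
    (ε : ℝ) (hε : ε ≤ 1 / 10) :
    ((sig d).prod (rowLaw d T)).real {p | ‖g p.2 (applyRows p.2 p.1) - (p.1 : E d)‖ ≤ ε} ≤ 0.63 := by
  sorry

end Crest.Agent.MemSample
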