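/-
Row 322 (S0499): from the learner to the block chain.
-/
import Crest.Agent.Lib.MemSample.Top.ChainDefs
import Crest.Agent.Lib.MemSample.Top.Sphere

set_option autoImplicit false

open MeasureTheory ProbabilityTheory
open scoped ENNReal

namespace Crest.Agent.MemSample

/-- Fix the seed; states `St × Option (Fin (T+1))` (state, stop index); blocks of `w` rows, the rows after the
horizon ignored. The single-row kernels `R_t(z,z') = γ{x : step_t z x ⟪x,s⟫ = z'}` multiply: for any
list of steps the law of the run on `Fin n` rows is the matrix product (`measurePreserving_piFinSuccAbove`,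
induction on `n`), which applies to the whole run and to each block.  Measurability: finite state recursion.
Angle `≤ ε` implies chord `≤ ε` for unit vectors. -/
theorem learner_reduce {d T M : ℕ} (hd : 1 ≤ d) (L : Crest.StreamLearn.RLearner d T M) (ε : ℝ)
    (hs : 2 / 3 ≤ L.successProb ε) (w J : ℕ) (hw : 1 ≤ w) (hJ : T ≤ J * w) :
    ∃ (Z : Type) (_ : Fintype Z) (_ : DecidableEq Z) (z₀ : Z)
      (f : ℕ → Z → (Fin w → E d) → (Fin w → ℝ) → Z) (out : Z → E d)
      (g : (Fin T → E d) → (Fin T → ℝ) → E d),
      Fintype.card Z ≤ (T + 2) * 2 ^ M ∧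
      (∀ j z n, MeasurableSet {p : (Fin w → E d) × (Fin w → ℝ) | f j z p.1 p.2 = n}) ∧
      Measurable (Function.uncurry g) ∧
      2 / 3 ≤ ((sig d).prod (rowLaw d T)).real
        {p | ‖g p.2 (applyRows p.2 p.1) - (p.1 : E d)‖ ≤ ε} ∧
      2 / 3 ≤ ∑ z, ∫ s in {s : Crest.StreamLearn.Sphere d | ‖(s : E d) - out z‖ ≤ ε},
        Chain.iterFam z₀ (fun j z z' (s : Crest.StreamLearn.Sphere d) =>
          blockKernel (f j z) z' (s : E d)) J z s ∂(sig d) := by
  sorry

end Crest.Agent.MemSample
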