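/-
Row 322 (S0499), module GaussRow: the Gram-Schmidt small-ball bound for one Gaussian row.
-/
import Crest.Agent.Lib.MemSample.Top.Defs

set_option autoImplicit false

open MeasureTheory ProbabilityTheory
open scoped ENNReal

namespace Crest.Agent.MemSample

/-- The span of the vectors before `l`. -/
def gsSpan {d n : ℕ} (u : Fin n → E d) (l : Fin n) : Submodule ℝ (E d) :=
  Submodule.span ℝ (u '' {j | j < l})

/-- Peeling lemma: `e` a unit vector, `B` a measurable set and `g` a measurable function, both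
invariant under translations along `e`. Then the event `B ∩ {|⟪x,e⟫ - g x| < δ}` has Gaussian mass
at most `gam B · 2δ/√(2π)`.
Proof: take an orthonormal basis with first vector `e`; `stdGaussian_eq_map_pi_orthonormalBasis`;
Fubini in the first coordinate; the density of `gaussianReal 0 1` is at most `1/√(2π)`. -/
theorem gauss_peel {d : ℕ} (e : E d) (he : ‖e‖ = 1) (B : Set (E d)) (hB : MeasurableSet B)
    (g : E d → ℝ) (hg : Measurable g)
    (hBinv : ∀ x (t : ℝ), x + t • e ∈ B ↔ x ∈ B) (hginv : ∀ x (t : ℝ), g (x + t • e) = g x)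
    (δ : ℝ) (hδ : 0 < δ) :
    gam d (B ∩ {x | |inner ℝ x e - g x| < δ}) ≤ gam d B * ENNReal.ofReal (2 * δ / √(2 * Real.pi)) := by
  sorry

/-- One Gaussian row: `P[|⟪x,u_l⟫| < τ ∀ l] ≤ ∏_l (2τ/√(2π)) / dist(u_l, span(u_j : j<l))`.
Proof: induction on the number of vectors, peeling the last one: if the distance vanishes use the
bound `∞`; otherwise `e` = normalized `u_l - P u_l`, and the earlier constraints and
`g x = -⟪x, P u_l⟫/dist` are invariant along `e`; `⟪x,u_l⟫ = dist ⟪x,e⟫ + ⟪x,P u_l⟫`. -/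
theorem gauss_smallBall {d n : ℕ} (u : Fin n → E d) {τ : ℝ} (hτ : 0 < τ) :
    gam d {x | ∀ l, |inner ℝ x (u l)| < τ} ≤
      ∏ l, (ENNReal.ofReal (2 * τ / √(2 * Real.pi)) *
        (ENNReal.ofReal (distTo (gsSpan u l) (u l)))⁻¹) := by
  sorry

end Crest.Agent.MemSample
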