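/-
Row 322 (S0499), module Moments: the expected dyadic `L^k` functional of a random projection.
-/
import Crest.Agent.Lib.MemSample.Top.GaussRow

set_option autoImplicit false

open MeasureTheory ProbabilityTheory
open scoped ENNReal

namespace Crest.Agent.MemSample

/-- (d) Moment bound. For `S` measurable of mass `≤ u`, if the negative moments of the distance to
all subspaces of dimension `≤ k-2` (any base point) on `S` are at most `I`, then for every `m`
`E_X Λ_m(X#(μ|S)) ≤ (2/√(2π))^(w(k-1)) u I^(k-1)`.
Proof: `ν(c)^k = (μ|S)^{⊗k}{all X s_l ∈ c}` (`Measure.pi_pi`); sum over `c`: event "`X s_l` all in the same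
`2^-m`-cube"; Tonelli with `E_X`; rows independent, so the `X`-probability is the `w`-th power of one row's;
`gauss_smallBall` with `u_l = s_(l+1) - s_0`, `τ = 2^-m` (same interval ⇒ differences `< τ`); `τ` cancels;
iterated Tonelli integrating the last point first (`measurePreserving_piFinSuccAbove`). -/
theorem moment_bound {d w k : ℕ} (hk : 2 ≤ k) (μ : Measure (E d)) [IsFiniteMeasure μ]
    (S : Set (E d)) (hS : MeasurableSet S) (u I : ℝ≥0∞) (hu : μ S ≤ u)
    (hI : ∀ (V : Submodule ℝ (E d)) (c : E d), Module.finrank ℝ V ≤ k - 2 →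
      ∫⁻ s in S, (ENNReal.ofReal (distTo V (s - c)))⁻¹ ^ w ∂μ ≤ I) (m : ℕ) :
    ∫⁻ X, LamM w k m ((μ.restrict S).map (applyRows X)) ∂(rowLaw d w) ≤
      ENNReal.ofReal ((2 / √(2 * Real.pi)) ^ (w * (k - 1))) * u * I ^ (k - 1) := by
  sorry

end Crest.Agent.MemSample
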