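/-
Row 322 (S0499), module NonConc: Frostman measures do not concentrate near subspaces.
-/
import Crest.Agent.Lib.MemSample.Top.Cells

set_option autoImplicit false

open MeasureTheory ProbabilityTheory
open scoped ENNReal

namespace Crest.Agent.MemSample

/-- The hypothesis of the Window Lemma on the prior `μ`: supported in the level-`Q` cube `m₀`, and
`μ(C') ≤ K₀ 2^(-β(q-Q))` for all cubes of level `q ≥ Q`. -/
structure Frostman {d : ℕ} (β Q : ℕ) (m₀ : Fin d → ℤ) (K₀ : ℝ) (μ : Measure (E d)) : Prop where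
  supp : μ (cube d Q m₀)ᶜ = 0
  one_le : 1 ≤ K₀
  frost : ∀ q, Q ≤ q → ∀ m, μ (cube d q m) ≤ ENNReal.ofReal (K₀ * (1 / 2 : ℝ) ^ (β * (q - Q)))

/-- Volumetric net bound: a `t`-separated subset of the ball of radius `R` in a subspace `V` of
dimension `h` has at most `(1 + 2R/t)^h` points. (Disjoint balls of radius `t/2` in `V`;
`Measure.addHaar_ball`.) -/
theorem card_le_of_separated_subspace {d : ℕ} (V : Submodule ℝ (E d)) (A : Finset (E d))
    (R t : ℝ) (hR : 0 ≤ R) (ht : 0 < t) (hAV : ∀ x ∈ A, x ∈ V) (hAR : ∀ x ∈ A, ‖x‖ ≤ R)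
    (hsep : ∀ x ∈ A, ∀ y ∈ A, x ≠ y → t ≤ ‖x - y‖) :
    (A.card : ℝ) ≤ (1 + 2 * R / t) ^ Module.finrank ℝ V := by
  sorry

/-- (a) Non-concentration:
`μ{s : dist(s-c, V) < t} ≤ K' (t/r)^β'`, `r = 2^-Q`, `K' = 4^k c₁^d K₀`, `β' = β+2-k`.
Proof: `t ≥ r` trivial as `K'≥1`. For `t<r`: take a maximal `t`-separated subset of
`(c+V) ∩ B(c₀, r/2+t)`, size `≤ (4r/t)^dim`; the `2t`-balls around it cover; each `2t`-ball is covered by
`c₁^d` cubes of level `q`, `2^-q ≤ t < 2^(1-q)`, `q ≥ Q` (`exists_finset_cells_of_ball` with `ρ = 4`),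
of mass `≤ K₀ (t/r)^β`. -/
theorem nonconc {d k β Q : ℕ} {m₀ : Fin d → ℤ} {K₀ : ℝ} {μ : Measure (E d)}
    [IsProbabilityMeasure μ] (hF : Frostman β Q m₀ K₀ μ) (hk : 2 ≤ k) (hkβ : k ≤ β + 2)
    (V : Submodule ℝ (E d)) (hV : Module.finrank ℝ V ≤ k - 2) (c : E d) (t : ℝ) (ht : 0 < t) :
    μ {s | distTo V (s - c) < t} ≤
      ENNReal.ofReal (KP d k K₀ * (t / (1 / 2 : ℝ) ^ Q) ^ betaP k β) := by
  sorry

/-- (b) Negative moment of the distance on a set `S` of mass at most `u`.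
Proof: split at `t* = r (u/K')^(1/β')`; dyadic shells below; `β'-w ≥ 1`; in particular the zero set of
the distance is null by `nonconc`. -/
theorem neg_moment {d k β Q w : ℕ} {m₀ : Fin d → ℤ} {K₀ : ℝ} {μ : Measure (E d)}
    [IsProbabilityMeasure μ] (hF : Frostman β Q m₀ K₀ μ) (hk : 2 ≤ k) (hkβ : k ≤ β + 2)
    (hw : w + 1 ≤ betaP k β)
    (S : Set (E d)) (u : ℝ) (hu : 0 < u) (hS : μ S ≤ ENNReal.ofReal u)
    (V : Submodule ℝ (E d)) (hV : Module.finrank ℝ V ≤ k - 2) (c : E d) :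
    ∫⁻ s in S, (ENNReal.ofReal (distTo V (s - c)))⁻¹ ^ w ∂μ ≤
      ENNReal.ofReal (IMax w k β (KP d k K₀) ((1 / 2 : ℝ) ^ Q) u) := by
  sorry

end Crest.Agent.MemSample
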