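/-
Row 322 (S0499), module Window: the Window Lemma (WL), from the modules NonConc, Moments, DyadicLk,
Ellipsoid.
-/
import Crest.Agent.Lib.MemSample.Top.NonConc
import Crest.Agent.Lib.MemSample.Top.Moments
import Crest.Agent.Lib.MemSample.Top.DyadicLk
import Crest.Agent.Lib.MemSample.Top.Ellipsoid

set_option autoImplicit false

open MeasureTheory ProbabilityTheory
open scoped ENNReal

namespace Crest.Agent.MemSample

variable {d w k β Q : ℕ} {m₀ : Fin d → ℤ} {K₀ : ℝ} {μ : Measure (E d)}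
  {ι : Type*} [Fintype ι]

/-- `blockKernel` is measurable in the signal. -/
theorem measurable_blockKernel {f : (Fin w → E d) → (Fin w → ℝ) → ι}
    (hf : ∀ n, MeasurableSet {p : (Fin w → E d) × (Fin w → ℝ) | f p.1 p.2 = n}) (n : ι) :
    Measurable (blockKernel f n) := by
  sorry

/-- (g) The Hoelder step: finitely many sets `S_n` of mass at most `u₀`. Then
`∑_n ∫_{S_n} L_n dμ ≤ 1/Ke + V Ke^(w/2) u₀^θ`, where `V = exp (logV ...)`. -/
theorem holder_step [IsProbabilityMeasure μ] (hF : Frostman β Q m₀ K₀ μ) (hk : 2 ≤ k)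
    (hw1 : 1 ≤ w) (hkβ : k ≤ β + 2) (hw : w + 1 ≤ betaP k β) [Nonempty ι]
    (f : (Fin w → E d) → (Fin w → ℝ) → ι)
    (hf : ∀ n, MeasurableSet {p : (Fin w → E d) × (Fin w → ℝ) | f p.1 p.2 = n})
    (S : ι → Set (E d)) (hS : ∀ n, MeasurableSet (S n)) (u₀ : ℝ) (hu₀ : 0 < u₀)
    (hSu : ∀ n, μ (S n) ≤ ENNReal.ofReal u₀) (Ke : ℝ) (hKe : 1 ≤ Ke) :
    ∑ n, ∫⁻ s in S n, ENNReal.ofReal (blockKernel f n s) ∂μ ≤
      ENNReal.ofReal (1 / Ke) +
      ENNReal.ofReal (Real.exp (logV d w k β (Fintype.card ι) K₀) * Ke ^ ((w : ℝ) / 2) *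
        u₀ ^ thetaW w k β) := by
  sorry

/-- The Window Lemma (general parameters). The tail of the information density follows from
`holder_step` with `S_n = {L_n ≥ e^ℓ p_n}`, `u₀ = e^-ℓ` (Markov), `Ke` optimized:
`P[i > ℓ] ≤ 2 exp(-(θ ℓ - logV)/(1+w/2))`, and the tail sum at `ℓ_i = logV/θ + i (1+w/2)/θ` gives the
bound. -/
theorem window_lemma [IsProbabilityMeasure μ] (hF : Frostman β Q m₀ K₀ μ) (hk : 2 ≤ k)
    (hw1 : 1 ≤ w) (hkβ : k ≤ β + 2) (hw : w + 1 ≤ betaP k β) [Nonempty ι]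
    (f : (Fin w → E d) → (Fin w → ℝ) → ι)
    (hf : ∀ n, MeasurableSet {p : (Fin w → E d) × (Fin w → ℝ) | f p.1 p.2 = n}) :
    miFun μ (blockKernel f) ≤ wlBound d w k β (Fintype.card ι) K₀ := by
  sorry

end Crest.Agent.MemSample
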