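/-
Row 322 (S0499), module WindowParams: the numerical form of the Window Lemma for `w = d/16, k = d/8,
β = d/2`.
-/
import Crest.Agent.Lib.MemSample.Top.Defs

set_option autoImplicit false

open MeasureTheory ProbabilityTheory
open scoped ENNReal

namespace Crest.Agent.MemSample

/-- For `d ≥ 255`: `wlBound ≤ 11 log N / d + 8 d + (1/5) log K₀`.
Paper: `k ≥ d/9`, `β' ≥ 3d/8`, `x = w/β' ≤ 1/6`, `θ = 1 - x + x/k ≥ 5/6`, `log cOne ≤ 37.1`. -/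
theorem wlBound_le {d : ℕ} (hd : 255 ≤ d) {N K₀ : ℝ} (hN : 1 ≤ N) (hK₀ : 1 ≤ K₀) :
    wlBound d (d / 16) (d / 8) (d / 2) N K₀ ≤
      11 * Real.log N / d + 8 * d + (1 / 5) * Real.log K₀ := by
  sorry

theorem params_ok {d : ℕ} (hd : 255 ≤ d) :
    2 ≤ d / 8 ∧ 1 ≤ d / 16 ∧ d / 8 ≤ d / 2 + 2 ∧ d / 16 + 1 ≤ betaP (d / 8) (d / 2) := by
  unfold betaP; omega

end Crest.Agent.MemSample
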