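/-
Row 322 (S0499): instantiating the abstract chain on the sphere.
-/
import Crest.Agent.Lib.MemSample.Top.Window
import Crest.Agent.Lib.MemSample.Top.WindowParams
import Crest.Agent.Lib.MemSample.Top.ChainStep
import Crest.Agent.Lib.MemSample.Top.ChainEnds
import Crest.Agent.Lib.MemSample.Top.Reduce
import Crest.Agent.Lib.MemSample.Top.Rank

set_option autoImplicit false

open MeasureTheory ProbabilityTheory
open scoped ENNReal

namespace Crest.Agent.MemSample

open Chain

/-- The partition of the sphere. -/
noncomputable def sCell (d : ℕ) (q : ℕ) (s : Crest.StreamLearn.Sphere d) : Fin d → ℤ :=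
  cellIdx d q (s : E d)

theorem measurable_sCell (d q : ℕ) : Measurable (sCell d q) :=
  (measurable_cellIdx d q).comp measurable_subtype_coe

theorem chainHyp_sphere {d β a : ℕ} (hd : 1 ≤ d) (hβa : β + a + 1 = d) (ha : 1 ≤ a) :
    ChainHyp (sig d) (sCell d) β a (2 ^ d) := by
  refine ⟨sig_isProb hd, measurable_sCell d, ?_, ?_, ha, by positivity⟩
  · intro q
    obtain ⟨A, -, hA⟩ := exists_finset_cells_of_ball d q (0 : E d) (2 ^ q) (by positivity)
    refine A.finite_toSet.subset ?_
    rintro _ ⟨s, rfl⟩
    refine hA (s : E d) ?_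
    have h1 : ‖(s : E d)‖ = 1 := by simp
    have h2 : (2 : ℝ) ^ q * (1 / 2 : ℝ) ^ q = 1 := by
      rw [← mul_pow]; norm_num
    simp [h1]
  · intro q c
    by_cases hne : (sCell d q ⁻¹' {c}).Nonempty
    · obtain ⟨s₀, hs₀⟩ := hne
      have hsub : sCell d q ⁻¹' {c} ⊆ {s | ‖(s : E d) - (s₀ : E d)‖ ≤ (1 / 2 : ℝ) ^ q} := by
        intro s hs
        refine norm_sub_le_of_same_cell ?_
        have h1 : sCell d q s = c := hs
        have h2 : sCell d q s₀ = c := hs₀
        exact h1.trans h2.symm
      refine (measure_mono hsub).trans ((sig_cap hd (s₀ : E d) _ (by positivity)).trans ?_)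
      apply ENNReal.ofReal_le_ofReal
      have : d - 1 = β + a := by omega
      rw [this, ← pow_mul, mul_comm q]
    · rw [Set.not_nonempty_iff_eq_empty.mp hne]
      simp

/-- The block kernel is a family. -/
theorem isFamily_blockKernel {d w : ℕ} {Z : Type*} [Fintype Z]
    (f : (Fin w → E d) → (Fin w → ℝ) → Z)
    (hf : ∀ n, MeasurableSet {p : (Fin w → E d) × (Fin w → ℝ) | f p.1 p.2 = n}) :
    IsFamily (fun z' (s : Crest.StreamLearn.Sphere d) => blockKernel f z' (s : E d)) := by
  refine ⟨fun z => (measurable_blockKernel hf z).comp measurable_subtype_coe,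
    fun z s => measureReal_nonneg, fun s => ?_⟩
  have hmeasX : Measurable (fun X : Fin w → E d => (X, applyRows X (s : E d))) := by
    refine measurable_id.prodMk ?_
    refine measurable_pi_iff.2 fun i => ?_
    unfold applyRows
    exact (measurable_pi_apply i).inner measurable_const
  have hm : ∀ z, MeasurableSet {X : Fin w → E d | f X (applyRows X (s : E d)) = z} := fun z =>
    hmeasX (hf z)
  have hdisj : Pairwise (Function.onFun Disjoint
      fun z => {X : Fin w → E d | f X (applyRows X (s : E d)) = z}) := by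
    intro a b hab
    refine Set.disjoint_left.2 fun X hX hX' => hab ?_
    exact (show f X _ = a from hX).symm.trans hX'
  have hunion : (⋃ z, {X : Fin w → E d | f X (applyRows X (s : E d)) = z}) = Set.univ := by
    ext X; simp
  have := measureReal_iUnion_fintype (μ := rowLaw d w) hdisj hm
  rw [hunion] at this
  simpa [blockKernel, probReal_univ] using this.symm

/-- The Window Lemma on the sphere. -/
theorem wlHyp_sphere {d : ℕ} (hd : 255 ≤ d) {Z : Type} [Fintype Z] [Nonempty Z]
    (f : (Fin (d / 16) → E d) → (Fin (d / 16) → ℝ) → Z)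
    (hf : ∀ n, MeasurableSet {p : (Fin (d / 16) → E d) × (Fin (d / 16) → ℝ) | f p.1 p.2 = n}) :
    WLHyp (sig d) (sCell d) (d / 2)
      (fun z' (s : Crest.StreamLearn.Sphere d) => blockKernel f z' (s : E d))
      (11 * Real.log (Fintype.card Z) / d + 8 * d) (1 / 5) := by
  intro μ _ q c K₀ hK₀ _ hsupp hfrost
  have hcoe : Measurable (Subtype.val : Crest.StreamLearn.Sphere d → E d) := measurable_subtype_coe
  have hμ' : IsProbabilityMeasure (μ.map (Subtype.val : Crest.StreamLearn.Sphere d → E d)) :=
    Measure.isProbabilityMeasure_map hcoe.aemeasurable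
  have hF : Frostman (d / 2) q c K₀ (μ.map (Subtype.val : Crest.StreamLearn.Sphere d → E d)) := by
    refine ⟨?_, hK₀, ?_⟩
    · rw [Measure.map_apply hcoe (measurableSet_cube d q c).compl]
      exact hsupp
    · intro q' hq' m
      rw [Measure.map_apply hcoe (measurableSet_cube d q' m)]
      exact hfrost q' hq' m
  obtain ⟨h1, h2, h3, h4⟩ := params_ok hd
  have hWL := window_lemma hF h1 h2 h3 h4 f hf
  have hB : wlBound d (d / 16) (d / 8) (d / 2) (Fintype.card Z) K₀ ≤ _ :=
    wlBound_le hd (N := Fintype.card Z) (by exact_mod_cast Fintype.card_pos) hK₀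
  have hmi : miFun μ (fun z' (s : Crest.StreamLearn.Sphere d) => blockKernel f z' (s : E d)) =
      miFun (μ.map (Subtype.val : Crest.StreamLearn.Sphere d → E d)) (blockKernel f) := by
    unfold miFun
    refine Finset.sum_congr rfl fun n _ => ?_
    have hk : Measurable (blockKernel f n) := measurable_blockKernel hf n
    have hp : ∫ s', blockKernel f n s' ∂(μ.map Subtype.val) = ∫ s' : Crest.StreamLearn.Sphere d, blockKernel f n (s' : E d) ∂μ :=
      integral_map hcoe.aemeasurable hk.aestronglyMeasurable
    rw [hp, integral_map hcoe.aemeasurable]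
    exact (hk.mul (hk.div_const _).log).aestronglyMeasurable
  rw [hmi]
  exact hWL.trans (by simpa using hB)

end Crest.Agent.MemSample
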