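/-
Row 322 (S0499): the final assembly (arithmetic) from the modules.
-/
import Crest.Agent.Lib.MemSample.Top.Glue

set_option autoImplicit false

open MeasureTheory ProbabilityTheory
open scoped ENNReal

namespace Crest.Agent.MemSample

open Chain

theorem log_two_le : Real.log 2 ≤ 0.7 := by
  have := Real.log_two_lt_d9; linarith

theorem log_two_ge : 0.69 ≤ Real.log 2 := by
  have := Real.log_two_gt_d9; linarith

theorem log_cOne_le : Real.log cOne ≤ 37.4 := by
  unfold cOne
  rw [Real.log_mul (by norm_num) (Real.exp_pos _).ne', Real.log_exp]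
  have h3 : Real.log 3 ≤ Real.log 4 := Real.log_le_log (by norm_num) (by norm_num)
  have h4 : Real.log 4 = 2 * Real.log 2 := by
    rw [show (4 : ℝ) = 2 ^ 2 by norm_num, Real.log_pow]; norm_num
  have := log_two_le
  linarith

theorem cOne_pos : 0 < cOne := by unfold cOne; positivity

theorem one_le_cOne : 1 ≤ cOne := by
  unfold cOne
  have : (1 : ℝ) ≤ Real.exp 36 := Real.one_le_exp (by norm_num)
  linarith

/-- The covering count at level `0`. -/
theorem ncard_range_sCell_zero (d : ℕ) :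
    ((Set.range (sCell d 0)).ncard : ℝ) ≤ cOne ^ d := by
  obtain ⟨A, hAc, hA⟩ := exists_finset_cells_of_ball d 0 (0 : E d) 1 (by norm_num)
  have hsub : Set.range (sCell d 0) ⊆ (A : Set (Fin d → ℤ)) := by
    rintro _ ⟨s, rfl⟩
    refine hA (s : E d) ?_
    simp
  have h1 : (Set.range (sCell d 0)).ncard ≤ A.card := by
    have := Set.ncard_le_ncard hsub A.finite_toSet
    simpa using this
  have h2 : (3 * Real.exp ((1 + 2) ^ 2) : ℝ) ≤ cOne := by
    unfold cOne
    have : Real.exp ((1 + 2) ^ 2) ≤ Real.exp 36 := Real.exp_le_exp.2 (by norm_num)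
    linarith
  calc ((Set.range (sCell d 0)).ncard : ℝ) ≤ A.card := by exact_mod_cast h1
    _ ≤ _ := hAc
    _ ≤ cOne ^ d := pow_le_pow_left₀ (by positivity) h2 d

section main

variable {d : ℕ} {Z : Type} [Fintype Z] [DecidableEq Z]

/-- The kernels of the block chain. -/
noncomputable abbrev tauK {d w : ℕ} {Z : Type} (f : ℕ → Z → (Fin w → E d) → (Fin w → ℝ) → Z) :
    ℕ → Z → Z → Crest.StreamLearn.Sphere d → ℝ :=
  fun j z z' s => blockKernel (f j z) z' (s : E d)

/-- Counting: `(d-1) log(1/ε) ≤ log |Z| + d log 2 + log (3/2)`. -/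
theorem counting_ineq (hd : 2 ≤ d) {w : ℕ} (z₀ : Z) (f : ℕ → Z → (Fin w → E d) → (Fin w → ℝ) → Z)
    (out : Z → E d) (hf : ∀ j z n, MeasurableSet {p : (Fin w → E d) × (Fin w → ℝ) | f j z p.1 p.2 = n})
    (ε : ℝ) (hε : 0 < ε) (J : ℕ)
    (hs : 2 / 3 ≤ ∑ z, ∫ s in {s : Crest.StreamLearn.Sphere d | ‖(s : E d) - out z‖ ≤ ε},
        iterFam z₀ (tauK f) J z s ∂(sig d)) :
    ((d : ℝ) - 1) * Real.log (1 / ε) ≤
      Real.log (Fintype.card Z) + d * Real.log 2 + Real.log (3 / 2) := by
  have hprob : IsProbabilityMeasure (sig d) := sig_isProb (by omega)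
  have hτ : ∀ j z, IsFamily (tauK f j z) := fun j z => isFamily_blockKernel (f j z) (hf j z)
  have hfam := isFamily_iter z₀ hτ J
  have hZ : Nonempty Z := ⟨z₀⟩
  -- each integral is at most `2^d ε^(d-1)`
  have hbd : ∀ z, ∫ s in {s : Crest.StreamLearn.Sphere d | ‖(s : E d) - out z‖ ≤ ε},
      iterFam z₀ (tauK f) J z s ∂(sig d) ≤ 2 ^ d * ε ^ (d - 1) := by
    intro z
    have hle1 : ∀ s, iterFam z₀ (tauK f) J z s ≤ 1 := by
      intro s
      rw [← hfam.sum_one s]
      exact Finset.single_le_sum (fun i _ => hfam.nonneg i s) (Finset.mem_univ z)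
    have hint : Integrable (iterFam z₀ (tauK f) J z) (sig d) :=
      Integrable.mono' (integrable_const (1 : ℝ)) (hfam.meas z).aestronglyMeasurable
        (Filter.Eventually.of_forall fun s => by
          rw [Real.norm_of_nonneg (hfam.nonneg z s)]; exact hle1 s)
    have h1 : ∫ s in {s : Crest.StreamLearn.Sphere d | ‖(s : E d) - out z‖ ≤ ε},
        iterFam z₀ (tauK f) J z s ∂(sig d) ≤
        ∫ s in {s : Crest.StreamLearn.Sphere d | ‖(s : E d) - out z‖ ≤ ε}, (1 : ℝ) ∂(sig d) :=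
      setIntegral_mono hint.integrableOn (integrable_const _) hle1
    have h2 := sig_cap (d := d) (by omega) (out z) ε hε
    have h3 : (sig d).real {s : Crest.StreamLearn.Sphere d | ‖(s : E d) - out z‖ ≤ ε} ≤
        2 ^ d * ε ^ (d - 1) :=
      ENNReal.toReal_le_of_le_ofReal (by positivity) h2
    simpa using h1.trans (by simpa using h3)
  have hsum : (2 / 3 : ℝ) ≤ (Fintype.card Z : ℝ) * (2 ^ d * ε ^ (d - 1)) := by
    refine hs.trans ?_
    calc _ ≤ ∑ _z : Z, (2 ^ d * ε ^ (d - 1) : ℝ) := Finset.sum_le_sum fun z _ => hbd z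
      _ = _ := by simp
  have hcard : (0 : ℝ) < Fintype.card Z := by exact_mod_cast Fintype.card_pos
  have hlog := Real.log_le_log (by norm_num) hsum
  rw [Real.log_mul hcard.ne' (by positivity), Real.log_mul (by positivity) (by positivity),
    Real.log_pow, Real.log_pow] at hlog
  have h1 : Real.log (1 / ε) = - Real.log ε := by simp
  have h2 : Real.log (2 / 3) = - Real.log (3 / 2) := by
    rw [← Real.log_inv]; norm_num
  have h3 : ((d - 1 : ℕ) : ℝ) = (d : ℝ) - 1 := by
    rw [Nat.cast_sub (by omega)]; simp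
  rw [h1]
  rw [h2, h3] at hlog
  nlinarith [hlog]

/-- The main inequality from the potential. -/
theorem main_ineq (A₁ : ℝ) (hA₁ : 1 ≤ A₁) (hd : 255 ≤ d) (hdA : 96 * A₁ + 61 ≤ d)
    (z₀ : Z) (f : ℕ → Z → (Fin (d / 16) → E d) → (Fin (d / 16) → ℝ) → Z) (out : Z → E d)
    (hf : ∀ j z n, MeasurableSet {p : (Fin (d / 16) → E d) × (Fin (d / 16) → ℝ) | f j z p.1 p.2 = n})
    (hN : Real.log (Fintype.card Z) ≤ A₁ * d ^ 2) (ε : ℝ) (hε : 0 < ε) (hε1 : ε ≤ 1 / 10) (J : ℕ)
    (hs : 2 / 3 ≤ ∑ z, ∫ s in {s : Crest.StreamLearn.Sphere d | ‖(s : E d) - out z‖ ≤ ε},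
        iterFam z₀ (tauK f) J z s ∂(sig d)) :
    Real.log (1 / ε) ≤ 430 + 8 * (11 * A₁ + 10) * J := by
  have hZ : Nonempty Z := ⟨z₀⟩
  set β := d / 2 with hβdef
  set a := d - 1 - β with hadef
  have hβa : β + a + 1 = d := by omega
  have ha1 : 1 ≤ a := by omega
  have hd0 : (0 : ℝ) < d := by
    have : 0 < d := by omega
    exact_mod_cast this
  have hd255 : (255 : ℝ) ≤ d := by exact_mod_cast hd
  have hh : ChainHyp (sig d) (sCell d) β a (2 ^ d) := chainHyp_sphere (by omega) hβa ha1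
  have hprob : IsProbabilityMeasure (sig d) := hh.prob
  have hτ : ∀ j z, IsFamily (tauK f j z) := fun j z => isFamily_blockKernel (f j z) (hf j z)
  have hfam := isFamily_iter z₀ hτ
  have ha4 : (d : ℝ) / 4 ≤ a := by
    have : d ≤ 4 * a := by omega
    have : (d : ℝ) ≤ 4 * a := by exact_mod_cast this
    linarith
  have hβ3 : (d : ℝ) / 3 ≤ β := by
    have : d ≤ 3 * β := by omega
    have : (d : ℝ) ≤ 3 * β := by exact_mod_cast this
    linarith
  have hβ1 : 1 ≤ β := by omega
  have hlog2a := log_two_le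
  have hlog2b := log_two_ge
  have hlc := log_cOne_le
  have hlB : Real.log (2 ^ d) = d * Real.log 2 := by rw [Real.log_pow]
  have hlN₀ : Real.log (cOne ^ d) = d * Real.log cOne := by rw [Real.log_pow]
  have hN₀ := ncard_range_sCell_zero d
  -- `ell ≤ d`
  have hell : ∀ j, ell (sig d) (sCell d) β (iterFam z₀ (tauK f) j) ≤ d := by
    intro j
    have h1 := ell_le hh (hfam j)
    have h2 := meanF_le hh (hfam j) hN₀
    have h3 := meanF_nonneg hh (hfam j)
    rw [hlB, hlN₀] at h2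
    set m := meanF (sig d) (sCell d) β (iterFam z₀ (tauK f) j) with hm
    have hmle : m ≤ 221 + 6 * A₁ * d := by
      have h4 : (d : ℝ) / 4 * 0.69 * m ≤ a * Real.log 2 * m := by
        apply mul_le_mul_of_nonneg_right _ h3
        exact mul_le_mul ha4 hlog2b (by norm_num) (by positivity)
      have h5 : (d : ℝ) / 4 * 0.69 * m ≤ d * 0.7 + A₁ * d ^ 2 + d * 37.4 := by
        have h6 : (d : ℝ) * Real.log 2 ≤ d * 0.7 := mul_le_mul_of_nonneg_left hlog2a hd0.le
        have h7 : (d : ℝ) * Real.log cOne ≤ d * 37.4 := mul_le_mul_of_nonneg_left hlc hd0.le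
        linarith
      have h8 : (d : ℝ) * (0.1725 * m) ≤ d * (38.1 + A₁ * d) := by nlinarith
      have h9 := le_of_mul_le_mul_left h8 hd0
      have hA₁d : 0 ≤ A₁ * d := by positivity
      nlinarith
    have hX : 0 < m + 2 := by linarith
    have hsq : √(m + 2) ≤ d / 4 := by
      rw [Real.sqrt_le_left (by positivity)]
      have hA₁d : 96 * A₁ * d + 61 * d ≤ d * d := by nlinarith
      nlinarith
    have hlg : Real.log (m + 2) ≤ 2 * (√(m + 2) - 1) := by
      have h10 : Real.log (√(m + 2)) ≤ √(m + 2) - 1 :=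
        Real.log_le_sub_one_of_pos (Real.sqrt_pos.2 hX)
      rw [Real.log_sqrt hX.le] at h10
      linarith
    nlinarith
  -- the potential telescopes
  have hΔ : 11 * Real.log (Fintype.card Z) / d + 8 * d ≤ 11 * A₁ * d + 8 * d := by
    have : 11 * Real.log (Fintype.card Z) / d ≤ 11 * A₁ * d := by
      rw [div_le_iff₀ hd0]; nlinarith
    linarith
  have hPhi : ∀ j : ℕ, Phi (sig d) (sCell d) β (iterFam z₀ (tauK f) j) ≤
      d * 37.4 + j * (11 * A₁ * d + 10 * d) := by
    intro j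
    induction j with
    | zero =>
      have h0 := Phi_init hh z₀ hN₀
      rw [hlN₀] at h0
      have : iterFam z₀ (tauK f) 0 = (fun z (_ : Crest.StreamLearn.Sphere d) => if z = z₀ then (1 : ℝ) else 0) := rfl
      rw [this]
      simp only [Nat.cast_zero, zero_mul, add_zero]
      exact h0.trans (mul_le_mul_of_nonneg_left hlc hd0.le)
    | succ j ih =>
      have hstep := Phi_step (hh) (hfam j) (hτ j) (Δ := 11 * Real.log (Fintype.card Z) / d + 8 * d)
        (ρ := 1 / 5) (by norm_num) (fun z => wlHyp_sphere hd (f j z) (hf j z))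
      have hle := hell j
      have h1 : iterFam z₀ (tauK f) (j + 1) = nextFam (iterFam z₀ (tauK f) j) (tauK f j) := rfl
      rw [h1]
      push_cast
      have h2 : (1 + 1 / 5 : ℝ) * ell (sig d) (sCell d) β (iterFam z₀ (tauK f) j) ≤ 1.2 * d := by
        linarith
      nlinarith
  -- the level at success
  obtain ⟨n, hn1, hn2⟩ := exists_nat_pow_near_of_lt_one hε (by linarith : ε ≤ 1)
    (by norm_num : (0 : ℝ) < 1 / 2) (by norm_num : (1 / 2 : ℝ) < 1)
  set qe := n + 1 with hqe
  have hcover : ∀ z, ∃ A : Finset (Fin d → ℤ), (A.card : ℝ) ≤ cOne ^ d ∧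
      ∀ s ∈ {s : Crest.StreamLearn.Sphere d | ‖(s : E d) - out z‖ ≤ ε}, sCell d qe s ∈ A := by
    intro z
    obtain ⟨A, hAc, hA⟩ := exists_finset_cells_of_ball d qe (out z) 2 (by norm_num)
    refine ⟨A, ?_, fun s hs => hA (s : E d) ?_⟩
    · refine hAc.trans (pow_le_pow_left₀ (by positivity) ?_ d)
      unfold cOne
      have : Real.exp ((2 + 2) ^ 2) ≤ Real.exp 36 := Real.exp_le_exp.2 (by norm_num)
      linarith
    · have h1 : ‖(s : E d) - out z‖ ≤ ε := hs
      have h2 : (2 : ℝ) * (1 / 2) ^ qe = (1 / 2) ^ n := by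
        rw [hqe, pow_succ]; ring
      rw [h2]
      exact h1.trans hn2
  have hmeasB : ∀ z, MeasurableSet {s : Crest.StreamLearn.Sphere d | ‖(s : E d) - out z‖ ≤ ε} := by
    intro z
    exact measurableSet_le ((measurable_subtype_coe.sub_const _).norm) measurable_const
  have hsb := success_bound hh hβ1 (hfam J) _ hmeasB qe (cOne ^ d) (one_le_pow₀ one_le_cOne) hcover hs
  have hend := end_bound hh (hfam J)
  have hPJ := hPhi J
  have hellJ := hell J
  rw [hlB] at hend
  set m := meanF (sig d) (sCell d) β (iterFam z₀ (tauK f) J) with hm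
  -- log(1/ε) ≤ qe log 2
  have hqlog : Real.log (1 / ε) ≤ qe * Real.log 2 := by
    have h1 : (1 / ε) ≤ 2 ^ qe := by
      have h2 : (1 / 2 : ℝ) ^ qe < ε := hn1
      rw [one_div_pow] at h2
      rw [div_le_iff₀ hε]
      have h3 : (0 : ℝ) < 2 ^ qe := by positivity
      rw [div_lt_iff₀ h3] at h2
      linarith
    have h4 := Real.log_le_log (by positivity) h1
    rwa [Real.log_pow] at h4
  -- the correction
  have hS : Real.log (6 * cOne ^ d) / β ≤ 113 := by
    rw [div_le_iff₀ (by exact_mod_cast hβ1)]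
    rw [Real.log_mul (by norm_num) (by have := cOne_pos; positivity), hlN₀]
    have h6 : Real.log 6 ≤ 2.1 := by
      have : Real.log 6 ≤ Real.log 8 := Real.log_le_log (by norm_num) (by norm_num)
      have h8 : Real.log 8 = 3 * Real.log 2 := by
        rw [show (8 : ℝ) = 2 ^ 3 by norm_num, Real.log_pow]; norm_num
      linarith
    have h7 : (d : ℝ) * Real.log cOne ≤ d * 37.4 := mul_le_mul_of_nonneg_left hlc hd0.le
    nlinarith
  have hlog2pos : 0 < Real.log 2 := by linarith
  have hβpos : (0 : ℝ) < β := by exact_mod_cast hβ1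
  have hS' : Real.log (6 * cOne ^ d) / (β * Real.log 2) * Real.log 2 = Real.log (6 * cOne ^ d) / β := by
    field_simp
  have hm0 := meanF_nonneg hh (hfam J)
  -- combine
  by_cases hsmall : Real.log (1 / ε) ≤ 113
  · have : (0 : ℝ) ≤ 8 * (11 * A₁ + 10) * J := by positivity
    linarith
  push Not at hsmall
  have hlow : (1 / 2 : ℝ) * (Real.log (1 / ε) - 113) ≤ Real.log 2 * m := by
    have h1 := mul_le_mul_of_nonneg_left hsb hlog2pos.le
    have h2 : Real.log 2 * ((1 / 2 : ℝ) * ((qe : ℝ) - Real.log (6 * cOne ^ d) / (β * Real.log 2))) =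
        (1 / 2) * (qe * Real.log 2 - Real.log (6 * cOne ^ d) / (β * Real.log 2) * Real.log 2) := by ring
    rw [h2, hS'] at h1
    linarith
  have hupper : a * (Real.log 2 * m) ≤ d * 39.1 + J * (11 * A₁ * d + 10 * d) := by
    have h6 : (d : ℝ) * Real.log 2 ≤ d * 0.7 := mul_le_mul_of_nonneg_left hlog2a hd0.le
    calc a * (Real.log 2 * m) = a * Real.log 2 * m := by ring
      _ ≤ _ := by linarith
  have hmid : (d : ℝ) / 4 * ((1 / 2 : ℝ) * (Real.log (1 / ε) - 113)) ≤ a * (Real.log 2 * m) := by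
    apply mul_le_mul ha4 hlow _ (by positivity)
    linarith
  have hfinal : (d : ℝ) * ((Real.log (1 / ε) - 113) / 8) ≤ d * (39.1 + J * (11 * A₁ + 10)) := by
    nlinarith
  have := le_of_mul_le_mul_left hfinal hd0
  nlinarith

end main

/-- The final theorem from the modules. -/
theorem final_result :
    ∀ A : ℝ, 0 < A → ∃ c : ℝ, 0 < c ∧ ∃ d₀ : ℕ, ∀ d ≥ d₀, ∀ (M T : ℕ),
      (M : ℝ) ≤ A * (d : ℝ) ^ 2 → ∀ ε : ℝ, 0 < ε → ε ≤ 1 / 10 →
        ∀ L : Crest.StreamLearn.RLearner d T M,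
          2 / 3 ≤ L.successProb ε → c * d * Real.log (1 / ε) ≤ T := by
  intro A hA
  set A₁ := max A 1 with hA₁def
  have hA₁ : 1 ≤ A₁ := le_max_right _ _
  have hAA₁ : A ≤ A₁ := le_max_left _ _
  set BA : ℝ := 8 * (11 * A₁ + 10) with hBA
  have hBApos : 0 < BA := by positivity
  set c : ℝ := min (1 / (34 * BA)) (min (1 / (8 * (430 + BA))) (1 / 4)) with hc
  have hcpos : 0 < c := by
    refine lt_min (by positivity) (lt_min (by positivity) (by norm_num))
  have hc1 : c ≤ 1 / (34 * BA) := min_le_left _ _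
  have hc2 : c ≤ 1 / (8 * (430 + BA)) := (min_le_right _ _).trans (min_le_left _ _)
  have hc3 : c ≤ 1 / 4 := (min_le_right _ _).trans (min_le_right _ _)
  refine ⟨c, hcpos, max 255 ⌈96 * A₁ + 61⌉₊, ?_⟩
  intro d hd M T hM ε hε hε1 L hs
  have hd255 : 255 ≤ d := (le_max_left _ _).trans hd
  have hdA : 96 * A₁ + 61 ≤ d := by
    have : ⌈96 * A₁ + 61⌉₊ ≤ d := (le_max_right _ _).trans hd
    exact (Nat.le_ceil _).trans (by exact_mod_cast this)
  by_contra hlt
  push Not at hlt
  have hd0 : (0 : ℝ) < d := by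
    have : 0 < d := by omega
    exact_mod_cast this
  have hdR : (255 : ℝ) ≤ d := by exact_mod_cast hd255
  set Ln := Real.log (1 / ε) with hLn
  have hLnpos : 0 < Ln := by
    apply Real.log_pos
    rw [lt_div_iff₀ hε]; linarith
  set w := d / 16 with hw
  have hw1 : 1 ≤ w := by omega
  set J := T / w + 1 with hJdef
  have hJ : T ≤ J * w := by
    have := Nat.lt_div_mul_add (a := T) (b := w) (by omega)
    rw [hJdef, add_mul, one_mul]; omega
  obtain ⟨Z, iZ, iD, z₀, f, out, g, hcard, hf, hg, hs1, hs2⟩ :=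
    learner_reduce (by omega) L ε hs w J hw1 hJ
  -- rank lemma
  have hrank : d < 4 * T := by
    by_contra hcon
    push Not at hcon
    have := rank_lemma (by omega) hcon g hg ε hε1
    norm_num at this hs1
    linarith
  have hZne : Nonempty Z := ⟨z₀⟩
  have hcardpos : (0 : ℝ) < Fintype.card Z := by exact_mod_cast Fintype.card_pos
  -- counting gives the size of `T`
  have hcount := counting_ineq (by omega) z₀ f out hf ε hε J hs2
  have hlog2a := log_two_le
  have hlog2b := log_two_ge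
  have hlogN : Real.log (Fintype.card Z) ≤ Real.log (T + 2) + A₁ * d ^ 2 * Real.log 2 := by
    have h1 : (Fintype.card Z : ℝ) ≤ (T + 2) * 2 ^ M := by exact_mod_cast hcard
    have h2 := Real.log_le_log hcardpos h1
    rw [Real.log_mul (by positivity) (by positivity), Real.log_pow] at h2
    have h3 : (M : ℝ) * Real.log 2 ≤ A₁ * d ^ 2 * Real.log 2 := by
      apply mul_le_mul_of_nonneg_right _ (by linarith)
      exact hM.trans (mul_le_mul_of_nonneg_right hAA₁ (by positivity))
    linarith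
  have hTpos : (0 : ℝ) ≤ T := by positivity
  have hT2 : Real.log (T + 2) ≤ T + 1 := by
    have := Real.log_le_sub_one_of_pos (show (0 : ℝ) < T + 2 by positivity)
    linarith
  have hTlt : (T : ℝ) < c * d * Ln := hlt
  have hTlt' : (T : ℝ) ≤ (1 / 4) * d * Ln := by
    have : c * d * Ln ≤ (1 / 4) * d * Ln := by
      apply mul_le_mul_of_nonneg_right _ hLnpos.le
      exact mul_le_mul_of_nonneg_right hc3 hd0.le
    linarith
  have hl32 : Real.log (3 / 2) ≤ 1 := by
    have := Real.log_le_sub_one_of_pos (show (0 : ℝ) < 3 / 2 by norm_num)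
    linarith
  have hA₁d2 : 0 ≤ A₁ * (d : ℝ) ^ 2 := by positivity
  have hLnle : Ln ≤ 1.4 * A₁ * d + 2 := by
    have h1 : ((d : ℝ) - 1) * Ln ≤ (1 / 4) * d * Ln + 1 + A₁ * d ^ 2 * 0.7 + d * 0.7 + 1 := by
      have h2 : A₁ * (d : ℝ) ^ 2 * Real.log 2 ≤ A₁ * d ^ 2 * 0.7 :=
        mul_le_mul_of_nonneg_left hlog2a hA₁d2
      have h3 : (d : ℝ) * Real.log 2 ≤ d * 0.7 := mul_le_mul_of_nonneg_left hlog2a hd0.le
      linarith
    have h4 : (d : ℝ) / 2 * Ln ≤ ((d : ℝ) - 1 - (1 / 4) * d) * Ln := by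
      apply mul_le_mul_of_nonneg_right _ hLnpos.le
      linarith
    have h5 : (d : ℝ) * (Ln / 2) ≤ d * (0.7 * A₁ * d + 0.7 + 2 / d) := by
      have : (d : ℝ) * (2 / d) = 2 := by field_simp
      nlinarith
    have h6 := le_of_mul_le_mul_left h5 hd0
    have h7 : 2 / (d : ℝ) ≤ 0.1 := by
      rw [div_le_iff₀ hd0]; linarith
    nlinarith
  have hTle : (T : ℝ) + 2 ≤ A₁ * d ^ 2 := by
    have h1 : (T : ℝ) ≤ (1 / 4) * d * (1.4 * A₁ * d + 2) :=
      hTlt'.trans (mul_le_mul_of_nonneg_left hLnle (by positivity))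
    have h2 : (d : ℝ) ^ 2 ≤ A₁ * d ^ 2 := by nlinarith [sq_nonneg (d : ℝ)]
    nlinarith
  have hlogT : Real.log (T + 2) ≤ 0.3 * (A₁ * d ^ 2) := by
    have h1 := Real.log_le_log (by positivity) hTle
    have h2 : Real.log (A₁ * (d : ℝ) ^ 2) = Real.log A₁ + 2 * Real.log d := by
      rw [Real.log_mul (by positivity) (by positivity), Real.log_pow]; norm_num
    have h3 := Real.log_le_sub_one_of_pos (show 0 < A₁ by linarith)
    have h4 := Real.log_le_sub_one_of_pos hd0
    have h5 : (d : ℝ) * 255 ≤ d ^ 2 := by nlinarith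
    have h6 : A₁ * ((d : ℝ) * 255) ≤ A₁ * d ^ 2 := mul_le_mul_of_nonneg_left h5 (by linarith)
    nlinarith
  have hN : Real.log (Fintype.card Z) ≤ A₁ * d ^ 2 := by
    have h2 : A₁ * (d : ℝ) ^ 2 * Real.log 2 ≤ A₁ * d ^ 2 * 0.7 :=
      mul_le_mul_of_nonneg_left hlog2a hA₁d2
    linarith
  -- the potential
  have hmain := main_ineq A₁ hA₁ hd255 hdA z₀ f out hf hN ε hε hε1 J hs2
  have hJle : (J : ℝ) ≤ 17 * T / d + 1 := by
    rw [hJdef]; push_cast
    have h1 : ((T / w : ℕ) : ℝ) ≤ (T : ℝ) / w := Nat.cast_div_le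
    have h2 : (d : ℝ) ≤ 17 * w := by
      have : d ≤ 17 * w := by omega
      exact_mod_cast this
    have h3 : (0 : ℝ) < w := by exact_mod_cast hw1
    have h4 : (T : ℝ) / w ≤ 17 * T / d := by
      rw [div_le_div_iff₀ h3 hd0]
      nlinarith
    linarith
  have h8 : 8 * (11 * A₁ + 10) * (J : ℝ) = BA * J := by rw [hBA]
  rw [h8] at hmain
  have hTd : 17 * (T : ℝ) / d ≤ 17 * c * Ln := by
    rw [div_le_iff₀ hd0]
    nlinarith
  have h17 : BA * (17 * c * Ln) ≤ Ln / 2 := by
    have h1 : BA * (17 * c) ≤ 1 / 2 := by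
      have : c * (34 * BA) ≤ 1 := by
        rw [le_div_iff₀ (by positivity)] at hc1; linarith
      nlinarith
    nlinarith
  have hLn2 : Ln ≤ 2 * (430 + BA) := by
    have h1 : BA * (J : ℝ) ≤ BA * (17 * c * Ln + 1) :=
      mul_le_mul_of_nonneg_left (hJle.trans (by linarith)) hBApos.le
    nlinarith
  have hfin : (T : ℝ) < d / 4 := by
    have h1 : c * (8 * (430 + BA)) ≤ 1 := by
      rw [le_div_iff₀ (by positivity)] at hc2; linarith
    have h2 : c * d * Ln ≤ c * d * (2 * (430 + BA)) :=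
      mul_le_mul_of_nonneg_left hLn2 (by positivity)
    have h3 : c * d * (2 * (430 + BA)) = (c * (8 * (430 + BA))) * (d / 4) := by ring
    have h4 : (c * (8 * (430 + BA))) * ((d : ℝ) / 4) ≤ 1 * (d / 4) :=
      mul_le_mul_of_nonneg_right h1 (by positivity)
    linarith
  have hrankR : (d : ℝ) < 4 * T := by exact_mod_cast hrank
  linarith

end Crest.Agent.MemSample
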