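/-
Row 322 (S0499): the full paper proof is in findings id 605 (topic row322-plan).

Module map (every `sorry` statement below is independent of the others; only statements are shared):
* `Defs`          shared definitions (do not change without telling everybody).
* `Cells`         grid, covering count (F2).
* `Sphere`        σ: probability, cap bound (F1), rotation invariance, second moment.
* `GaussRow`      Gram-Schmidt small ball for one Gaussian row.
* `DyadicLk`      Lemma B.
* `NonConc`       Frostman ⇒ non-concentration near subspaces, negative moment.
* `Moments`       expected dyadic L^k functional.
* `Ellipsoid`     Markov + volume of the random ellipsoid.
* `Window`        Hoelder step, tail, Window Lemma.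
* `WindowParams`  numerics of the Window Lemma bound.
* `ChainDefs`     definitions of the abstract chain.
* `ChainStep`     the potential step (Gibbs + WL).
* `ChainEnds`     a priori bound, start, end, success.
* `Reduce`        learner ⇒ block chain.
* `Rank`          rank lemma.
* `Glue`, `Final` fully proved from the above (arithmetic): `Final.final_result` is exactly S0499.
-/
import Crest.Agent.Lib.MemSample.Top.Final
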